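import Vale.Agent.P368.Formula

/-!
# Bounds on the block values
-/

namespace Vale.Agent.P368

open Matrix

set_option linter.unusedSectionVars false
set_option linter.unusedSimpArgs false
set_option linter.unusedVariables false

variable {Q : Type*} [Fintype Q] [DecidableEq Q]

/-- The per-qubit bound: `1/2` on input qubits, `1` otherwise. -/
noncomputable def iot (I : Finset Q) (q : Q) : ℝ := if q ∈ I then 1 / 2 else 1

lemma iot_pos (I : Finset Q) (q : Q) : 0 < iot I q := by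
  unfold iot; split_ifs <;> norm_num

lemma iot_le_one (I : Finset Q) (q : Q) : iot I q ≤ 1 := by
  unfold iot; split_ifs <;> norm_num

/-- Bound for a matrix whose diagonal factorizes as `α b * β b`. -/
lemma Lam_bound_of_factor (I : Finset Q) (q : Q) (M : Matrix Bool Bool ℂ) (α β : Bool → ℂ)
    (hM : ∀ b, M b b = α b * β b)
    (hα : ‖α false‖ ^ 2 + ‖α true‖ ^ 2 ≤ 1) (hβ : ‖β false‖ ^ 2 + ‖β true‖ ^ 2 ≤ 1) :
    ‖Lam I q M‖ ≤ iot I q := by
  by_cases h : q ∈ I
  · rw [Lam_mem h, iot, if_pos h, hM, hM, norm_mul]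
    have h1 : ‖α false * β false - α true * β true‖
        ≤ ‖α false‖ * ‖β false‖ + ‖α true‖ * ‖β true‖ := by
      refine (norm_sub_le _ _).trans ?_
      simp [norm_mul]
    have h2 : ‖α false‖ * ‖β false‖ + ‖α true‖ * ‖β true‖ ≤ 1 := by
      nlinarith [sq_nonneg (‖α false‖ - ‖β false‖), sq_nonneg (‖α true‖ - ‖β true‖)]
    simp only [one_div, norm_inv, Complex.norm_ofNat] 
    nlinarith
  · rw [Lam_not_mem h, iot, if_neg h, hM, norm_mul]
    nlinarith [sq_nonneg (‖α false‖ - ‖β false‖), sq_nonneg (‖α true‖),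
      sq_nonneg (‖β true‖), norm_nonneg (α false), norm_nonneg (β false)]

/-- A Hermitian idempotent one-qubit matrix has functional value bounded by `iot`. -/
lemma Lam_bound_proj (I : Finset Q) (q : Q) {W : Matrix Bool Bool ℂ}
    (h1 : Wᴴ = W) (h2 : W * W = W) : ‖Lam I q W‖ ≤ iot I q := by
  obtain ⟨r, hr, hr0, hr1⟩ := herm_idem_diag h1 h2 false
  obtain ⟨s, hs, hs0, hs1⟩ := herm_idem_diag h1 h2 true
  by_cases h : q ∈ I
  · rw [Lam_mem h, iot, if_pos h, hr, hs, ← Complex.ofReal_sub, norm_mul]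
    simp only [one_div, norm_inv, Complex.norm_ofNat, Complex.norm_real, Real.norm_eq_abs]
    have : |r - s| ≤ 1 := by rw [abs_le]; constructor <;> linarith
    linarith
  · rw [Lam_not_mem h, iot, if_neg h, hr]
    simp only [Complex.norm_real, Real.norm_eq_abs, abs_of_nonneg hr0]
    exact hr1

section OneQubit

variable (φ : Bool → ℂ) (hφ : ‖φ false‖ ^ 2 + ‖φ true‖ ^ 2 = 1)
  {W : Matrix Bool Bool ℂ} (h1 : Wᴴ = W) (h2 : W * W = W)

include h1 h2 in
/-- `W φ` has norm at most one if `φ` has, and its squared norm is `⟨φ,Wφ⟩`. -/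
lemma mulVec_facts :
    ((‖(W *ᵥ φ) false‖ ^ 2 + ‖(W *ᵥ φ) true‖ ^ 2 : ℝ) : ℂ)
      = star (φ false) * (W *ᵥ φ) false + star (φ true) * (W *ᵥ φ) true := by
  set v := W *ᵥ φ with hv
  have key : star v ⬝ᵥ v = star φ ⬝ᵥ v := by
    have : star v = star φ ᵥ* Wᴴ := by rw [hv, Matrix.star_mulVec]
    rw [this, ← Matrix.dotProduct_mulVec, h1, hv, Matrix.mulVec_mulVec, h2]
  have e1 : star v ⬝ᵥ v = star (v false) * v false + star (v true) * v true := by
    simp [dotProduct, Fintype.sum_bool, add_comm]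
  have e2 : star φ ⬝ᵥ v = star (φ false) * v false + star (φ true) * v true := by
    simp [dotProduct, Fintype.sum_bool, add_comm]
  rw [← e2, ← key, e1]
  push_cast
  have e : ∀ z : ℂ, star z * z = ((‖z‖ ^ 2 : ℝ) : ℂ) := fun z => by
    change (starRingEnd ℂ) z * z = _
    rw [← Complex.normSq_eq_conj_mul_self, Complex.normSq_eq_norm_sq]
  rw [e, e]
  push_cast
  rfl

include hφ h1 h2 in
lemma mulVec_nsq_le : ‖(W *ᵥ φ) false‖ ^ 2 + ‖(W *ᵥ φ) true‖ ^ 2 ≤ 1 := by
  have hf := mulVec_facts φ h1 h2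
  set v := W *ᵥ φ with hv
  set a : ℝ := ‖v false‖ ^ 2 + ‖v true‖ ^ 2 with ha
  have hnn : 0 ≤ a := by positivity
  have hnorm : ‖((a : ℝ) : ℂ)‖ = a := by simp [abs_of_nonneg hnn]
  have hle : a ≤ ‖φ false‖ * ‖v false‖ + ‖φ true‖ * ‖v true‖ := by
    calc a = ‖((a : ℝ) : ℂ)‖ := hnorm.symm
      _ = ‖star (φ false) * v false + star (φ true) * v true‖ := by rw [hf]
      _ ≤ ‖star (φ false) * v false‖ + ‖star (φ true) * v true‖ := norm_add_le _ _
      _ = _ := by simp [norm_mul]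
  nlinarith [sq_nonneg (‖φ false‖ - ‖v false‖), sq_nonneg (‖φ true‖ - ‖v true‖)]

lemma diag_ketbra_mul (hh : Wᴴ = W) (b : Bool) :
    (ketbra φ * W) b b = φ b * star ((W *ᵥ φ) b) := by
  have : ∀ t, W t b = star (W b t) := fun t => by
    conv_lhs => rw [← hh]
    rfl
  simp only [Matrix.mul_apply, ketbra, Matrix.of_apply, Matrix.mulVec, dotProduct, Fintype.sum_bool,
    star_add, star_mul', this]
  simp
  ring

lemma diag_mul_ketbra (b : Bool) :
    (W * ketbra φ) b b = (W *ᵥ φ) b * star (φ b) := by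
  simp only [Matrix.mul_apply, ketbra, Matrix.of_apply, Matrix.mulVec, dotProduct, Fintype.sum_bool]
  ring

lemma diag_ketbra_mul_ketbra (b : Bool) :
    (ketbra φ * W * ketbra φ) b b
      = φ b * (star (φ b) * (star (φ false) * (W *ᵥ φ) false + star (φ true) * (W *ᵥ φ) true)) := by
  simp only [Matrix.mul_apply, ketbra, Matrix.of_apply, Matrix.mulVec, dotProduct, Fintype.sum_bool]
  ring

include hφ h1 h2 in
lemma Lam_bound_left (I : Finset Q) (q : Q) : ‖Lam I q (ketbra φ * W)‖ ≤ iot I q := by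
  have hnsq := mulVec_nsq_le φ hφ h1 h2
  refine Lam_bound_of_factor I q _ φ (fun b => star ((W *ᵥ φ) b)) (diag_ketbra_mul φ h1) hφ.le ?_
  simpa using hnsq

include hφ h1 h2 in
lemma Lam_bound_right (I : Finset Q) (q : Q) : ‖Lam I q (W * ketbra φ)‖ ≤ iot I q := by
  have hnsq := mulVec_nsq_le φ hφ h1 h2
  refine Lam_bound_of_factor I q _ (W *ᵥ φ) (fun b => star (φ b)) (diag_mul_ketbra φ) hnsq ?_
  simpa using hφ.le

include hφ h1 h2 in
lemma Lam_bound_both (I : Finset Q) (q : Q) : ‖Lam I q (ketbra φ * W * ketbra φ)‖ ≤ iot I q := by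
  have hnsq := mulVec_nsq_le φ hφ h1 h2
  have hf := mulVec_facts φ h1 h2
  set s := star (φ false) * (W *ᵥ φ) false + star (φ true) * (W *ᵥ φ) true with hs
  have hsn : ‖s‖ ≤ 1 := by
    rw [← hf]
    have hnn : 0 ≤ ‖(W *ᵥ φ) false‖ ^ 2 + ‖(W *ᵥ φ) true‖ ^ 2 := by positivity
    rw [Complex.norm_real, Real.norm_eq_abs, abs_of_nonneg hnn]
    exact hnsq
  refine Lam_bound_of_factor I q _ φ (fun b => star (φ b) * s) (diag_ketbra_mul_ketbra φ) hφ.le ?_
  simp only [norm_mul, norm_star, mul_pow]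
  have : ‖s‖ ^ 2 ≤ 1 := by nlinarith [norm_nonneg s]
  nlinarith [sq_nonneg (‖φ false‖), sq_nonneg (‖φ true‖)]

end OneQubit

lemma ketbra_idem {φ : Bool → ℂ} (hφ : ‖φ false‖ ^ 2 + ‖φ true‖ ^ 2 = 1) :
    ketbra φ * ketbra φ = ketbra φ := by
  have h : star (φ false) * φ false + star (φ true) * φ true = 1 := by
    have e : ∀ z : ℂ, star z * z = ((‖z‖ ^ 2 : ℝ) : ℂ) := fun z => by
      change (starRingEnd ℂ) z * z = _
      rw [← Complex.normSq_eq_conj_mul_self, Complex.normSq_eq_norm_sq]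
    rw [e, e]
    exact_mod_cast hφ
  ext s t
  simp only [Matrix.mul_apply, ketbra, Matrix.of_apply, Fintype.sum_bool]
  linear_combination (φ s * star (φ t)) * h

lemma RGate.proj_isProjFam (G : RGate Q) : IsProjFam G.proj := by
  intro q
  refine ⟨G.proj_conjTranspose q, ?_⟩
  unfold RGate.proj
  split_ifs with h
  · exact ketbra_idem (G.unit q h)
  · simp

lemma RGate.mat_sq (G : RGate Q) : G.mat * G.mat = 1 := by
  unfold RGate.mat
  have h := tens_idem G.proj_isProjFam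
  simp only [Matrix.sub_mul, Matrix.mul_sub, Matrix.one_mul, Matrix.mul_one, Matrix.smul_mul,
    Matrix.mul_smul, h, smul_sub, smul_smul]
  rw [show (2 : ℂ) * 2 = 4 by norm_num]
  have : (4 : ℂ) • tens G.proj = (2 : ℂ) • tens G.proj + (2 : ℂ) • tens G.proj := by
    rw [← add_smul]; norm_num
  rw [this]
  abel

/-- Bound by the trivial count. -/
lemma Bk_bound_count (I : Finset Q) (G : RGate Q) {W : Q → Matrix Bool Bool ℂ} (hW : IsProjFam W) :
    ‖Bk I G W‖ ≤ 9 * ∏ q ∈ G.A, iot I q := by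
  set c := ∏ q ∈ G.A, iot I q with hc
  have hprod : ∀ f : Q → Matrix Bool Bool ℂ, (∀ q ∈ G.A, ‖Lam I q (f q)‖ ≤ iot I q) →
      ‖∏ q ∈ G.A, Lam I q (f q)‖ ≤ c := by
    intro f hf
    rw [norm_prod]
    exact Finset.prod_le_prod (fun _ _ => norm_nonneg _) hf
  have b1 := hprod W (fun q _ => Lam_bound_proj I q (hW q).1 (hW q).2)
  have b2 := hprod (fun q => G.proj q * W q) (fun q hq => by
    simp only [RGate.proj, if_pos hq]
    exact Lam_bound_left _ (G.unit q hq) (hW q).1 (hW q).2 I q)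
  have b3 := hprod (fun q => W q * G.proj q) (fun q hq => by
    simp only [RGate.proj, if_pos hq]
    exact Lam_bound_right _ (G.unit q hq) (hW q).1 (hW q).2 I q)
  have b4 := hprod (fun q => G.proj q * W q * G.proj q) (fun q hq => by
    simp only [RGate.proj, if_pos hq]
    exact Lam_bound_both _ (G.unit q hq) (hW q).1 (hW q).2 I q)
  unfold Bk
  calc _ ≤ ‖∏ q ∈ G.A, Lam I q (W q)‖ + ‖2 * ∏ q ∈ G.A, Lam I q (G.proj q * W q)‖
        + ‖2 * ∏ q ∈ G.A, Lam I q (W q * G.proj q)‖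
        + ‖4 * ∏ q ∈ G.A, Lam I q (G.proj q * W q * G.proj q)‖ := by
        refine (norm_add_le _ _).trans ?_
        gcongr
        refine (norm_sub_le _ _).trans ?_
        gcongr
        exact norm_sub_le _ _
    _ ≤ 9 * c := by
        simp only [norm_mul, Complex.norm_ofNat]
        linarith

/-- `Fc` of a Hermitian idempotent matrix. -/
lemma Fc_herm_idem (I : Finset Q) {M : Matrix (Q → Bool) (Q → Bool) ℂ} (h1 : Mᴴ = M)
    (h2 : M * M = M) : ‖Fc I M‖ ≤ (if I.Nonempty then 1 / 2 else 1) := by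
  have hsum : ∑ x ∈ Fintype.piFinset (cubeT I), ‖∏ q, wt I q (x q)‖ = 1 := by
    simp only [norm_prod]
    rw [← Finset.prod_univ_sum (cubeT I) (fun q b => ‖wt I q b‖)]
    refine Finset.prod_eq_one (fun q _ => ?_)
    by_cases h : q ∈ I
    · simp [cubeT, wt, h, Fintype.univ_bool]
      norm_num
    · simp [cubeT, wt, h]
  by_cases hI : I.Nonempty
  · rw [if_pos hI]
    obtain ⟨q₀, hq₀⟩ := hI
    have hzero : Fc I (1 : Matrix (Q → Bool) (Q → Bool) ℂ) = 0 := by
      rw [← tens_one, Fc_tens]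
      refine Finset.prod_eq_zero (Finset.mem_univ q₀) ?_
      rw [Lam_mem hq₀]
      simp
    have hrew : Fc I M = Fc I (M - (1 / 2 : ℂ) • (1 : Matrix (Q → Bool) (Q → Bool) ℂ)) := by
      rw [Fc_sub, Fc_smul, hzero]; simp
    rw [hrew]
    calc _ ≤ ∑ x ∈ Fintype.piFinset (cubeT I), ‖∏ q, wt I q (x q)‖ * (1 / 2) := by
          unfold Fc
          refine (norm_sum_le _ _).trans (Finset.sum_le_sum (fun x _ => ?_))
          rw [norm_mul]
          refine mul_le_mul_of_nonneg_left ?_ (norm_nonneg _)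
          obtain ⟨r, hr, hr0, hr1⟩ := herm_idem_diag h1 h2 x
          simp only [Matrix.sub_apply, Matrix.smul_apply, Matrix.one_apply_eq, smul_eq_mul, mul_one,
            hr]
          rw [show (r : ℂ) - 1 / 2 = ((r - 1 / 2 : ℝ) : ℂ) by push_cast; ring]
          rw [Complex.norm_real, Real.norm_eq_abs, abs_le]
          constructor <;> linarith
      _ = 1 / 2 := by rw [← Finset.sum_mul, hsum, one_mul]
  · rw [if_neg hI]
    calc _ ≤ ∑ x ∈ Fintype.piFinset (cubeT I), ‖∏ q, wt I q (x q)‖ * 1 := by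
          unfold Fc
          refine (norm_sum_le _ _).trans (Finset.sum_le_sum (fun x _ => ?_))
          rw [norm_mul]
          refine mul_le_mul_of_nonneg_left ?_ (norm_nonneg _)
          obtain ⟨r, hr, hr0, hr1⟩ := herm_idem_diag h1 h2 x
          rw [hr, Complex.norm_real, Real.norm_eq_abs, abs_of_nonneg hr0]
          exact hr1
      _ = 1 := by rw [← Finset.sum_mul, hsum, one_mul]

lemma Lam_congr_of_mem_iff {I I' : Finset Q} {q : Q} (h : q ∈ I' ↔ q ∈ I) (M : Matrix Bool Bool ℂ) :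
    Lam I' q M = Lam I q M := by
  by_cases hq : q ∈ I
  · rw [Lam_mem hq, Lam_mem (h.mpr hq)]
  · rw [Lam_not_mem hq, Lam_not_mem (fun h' => hq (h.mp h'))]

/-- The block value as a normalized signed sum of diagonal entries of a Hermitian idempotent. -/
lemma Bk_bound_half (I : Finset Q) (G : RGate Q) {W : Q → Matrix Bool Bool ℂ} (hW : IsProjFam W) :
    ‖Bk I G W‖ ≤ (if (G.A ∩ I).Nonempty then 1 / 2 else 1) := by
  set I' := G.A ∩ I with hI'
  set W' : Q → Matrix Bool Bool ℂ := fun q => if q ∈ G.A then W q else 1 with hW'def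
  have hW' : IsProjFam W' := by
    intro q
    by_cases h : q ∈ G.A
    · simpa [hW'def, h] using hW q
    · simp [hW'def, h]
  have hform := Fc_formula I' [G] (List.pairwise_singleton _ _) W'
  have hr : rlayer [G] = G.mat := by simp [rlayer]
  have hs : suppL [G] = G.A := by simp [suppL]
  rw [hr, hs] at hform
  simp only [List.map_cons, List.map_nil, List.prod_cons, List.prod_nil, mul_one] at hform
  have hrest : ∏ q ∈ Finset.univ \ G.A, Lam I' q (W' q) = 1 := by
    refine Finset.prod_eq_one (fun q hq => ?_)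
    have hq' : q ∉ G.A := by simpa using hq
    have hqI' : q ∉ I' := fun h => hq' (Finset.mem_inter.mp h).1
    rw [Lam_not_mem hqI']
    simp [hW'def, hq']
  rw [hrest, mul_one] at hform
  have hBk : Bk I' G W' = Bk I G W := by
    have hiff : ∀ q ∈ G.A, (q ∈ I' ↔ q ∈ I) := fun q hq => by
      simp [hI', hq]
    have hWeq : ∀ q ∈ G.A, W' q = W q := fun q hq => by simp [hW'def, hq]
    unfold Bk
    have e1 : ∏ q ∈ G.A, Lam I' q (W' q) = ∏ q ∈ G.A, Lam I q (W q) :=
      Finset.prod_congr rfl (fun q hq => by rw [hWeq q hq, Lam_congr_of_mem_iff (hiff q hq)])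
    have e2 : ∏ q ∈ G.A, Lam I' q (G.proj q * W' q) = ∏ q ∈ G.A, Lam I q (G.proj q * W q) :=
      Finset.prod_congr rfl (fun q hq => by rw [hWeq q hq, Lam_congr_of_mem_iff (hiff q hq)])
    have e3 : ∏ q ∈ G.A, Lam I' q (W' q * G.proj q) = ∏ q ∈ G.A, Lam I q (W q * G.proj q) :=
      Finset.prod_congr rfl (fun q hq => by rw [hWeq q hq, Lam_congr_of_mem_iff (hiff q hq)])
    have e4 : ∏ q ∈ G.A, Lam I' q (G.proj q * W' q * G.proj q)
        = ∏ q ∈ G.A, Lam I q (G.proj q * W q * G.proj q) :=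
      Finset.prod_congr rfl (fun q hq => by rw [hWeq q hq, Lam_congr_of_mem_iff (hiff q hq)])
    rw [e1, e2, e3, e4]
  rw [← hBk, ← hform]
  refine Fc_herm_idem I' ?_ ?_
  · rw [Matrix.conjTranspose_mul, Matrix.conjTranspose_mul, Matrix.conjTranspose_conjTranspose,
      tens_herm hW', Matrix.mul_assoc]
  · have hsq : G.matᴴ * G.mat = 1 := by rw [G.mat_conjTranspose]; exact G.mat_sq
    calc G.matᴴ * tens W' * G.mat * (G.matᴴ * tens W' * G.mat)
        = G.matᴴ * tens W' * (G.mat * G.matᴴ) * tens W' * G.mat := by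
          simp only [Matrix.mul_assoc]
      _ = G.matᴴ * (tens W' * tens W') * G.mat := by
          rw [G.mat_conjTranspose, G.mat_sq]
          simp only [Matrix.mul_assoc, Matrix.one_mul]
      _ = _ := by rw [tens_idem hW']

lemma prod_iot_eq (I A : Finset Q) : ∏ q ∈ A, iot I q = (1 / 2 : ℝ) ^ (A ∩ I).card := by
  unfold iot
  rw [Finset.prod_ite, Finset.prod_const_one, mul_one, Finset.prod_const]
  congr 1

/-- The combined bound for a block. -/
lemma Bk_bound_pow (I : Finset Q) (G : RGate Q) {W : Q → Matrix Bool Bool ℂ} (hW : IsProjFam W) :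
    ‖Bk I G W‖ ^ 4 ≤ ∏ q ∈ G.A, iot I q := by
  rw [prod_iot_eq]
  set b := (G.A ∩ I).card with hb
  have hcount := Bk_bound_count I G hW
  rw [prod_iot_eq, ← hb] at hcount
  have hhalf := Bk_bound_half I G hW
  have hn := norm_nonneg (Bk I G W)
  by_cases h0 : b = 0
  · have hne : ¬ (G.A ∩ I).Nonempty := by
      rw [Finset.not_nonempty_iff_eq_empty]
      exact Finset.card_eq_zero.mp h0
    rw [if_neg hne] at hhalf
    rw [h0, pow_zero]
    exact pow_le_one₀ hn hhalf
  · have hne : (G.A ∩ I).Nonempty := Finset.card_pos.mp (Nat.pos_of_ne_zero h0)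
    rw [if_pos hne] at hhalf
    have h4 : ‖Bk I G W‖ ^ 4 ≤ (1 / 2 : ℝ) ^ 4 := pow_le_pow_left₀ hn hhalf 4
    by_cases hle : b ≤ 4
    · refine h4.trans ?_
      exact pow_le_pow_of_le_one (by norm_num) (by norm_num) hle
    · have h5 : 5 ≤ b := by omega
      have h4' : ‖Bk I G W‖ ^ 4 ≤ (9 * (1 / 2 : ℝ) ^ b) ^ 4 := pow_le_pow_left₀ hn hcount 4
      refine h4'.trans ?_
      clear_value b
      obtain ⟨k, rfl⟩ : ∃ k, b = 5 + k := ⟨b - 5, by omega⟩
      have hk : ((1 / 2 : ℝ) ^ (5 + k)) ^ 3 ≤ (1 / 2 : ℝ) ^ 15 := by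
        rw [← pow_mul]
        exact pow_le_pow_of_le_one (by norm_num) (by norm_num) (by omega)
      have hpos : (0 : ℝ) < (1 / 2 : ℝ) ^ (5 + k) := by positivity
      calc (9 * (1 / 2 : ℝ) ^ (5 + k)) ^ 4
          = 9 ^ 4 * ((1 / 2 : ℝ) ^ (5 + k)) ^ 3 * (1 / 2 : ℝ) ^ (5 + k) := by ring
        _ ≤ 9 ^ 4 * (1 / 2 : ℝ) ^ 15 * (1 / 2 : ℝ) ^ (5 + k) := by gcongr
        _ ≤ 1 * (1 / 2 : ℝ) ^ (5 + k) := by
            apply mul_le_mul_of_nonneg_right _ hpos.le
            norm_num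
        _ = _ := one_mul _

/-- The product over the gates is bounded. -/
lemma list_prod_bound (I : Finset Q) (Gs : List (RGate Q))
    (hd : Gs.Pairwise (fun G H => Disjoint G.A H.A)) {W : Q → Matrix Bool Bool ℂ}
    (hW : IsProjFam W) :
    ‖(Gs.map (fun G => Bk I G W)).prod‖ ^ 4 ≤ ∏ q ∈ suppL Gs, iot I q := by
  induction Gs with
  | nil => simp [suppL]
  | cons G Gs ih =>
    rw [List.pairwise_cons] at hd
    have hdG := disjoint_suppL hd.1
    simp only [List.map_cons, List.prod_cons, norm_mul, mul_pow]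
    rw [show suppL (G :: Gs) = G.A ∪ suppL Gs from rfl, Finset.prod_union hdG]
    exact mul_le_mul (Bk_bound_pow I G hW) (ih hd.2) (by positivity)
      (Finset.prod_nonneg (fun q _ => (iot_pos I q).le))

/-- Main bound after one layer of reflections. -/
theorem Fc_bound (I : Finset Q) (Gs : List (RGate Q))
    (hd : Gs.Pairwise (fun G H => Disjoint G.A H.A)) {W : Q → Matrix Bool Bool ℂ}
    (hW : IsProjFam W) :
    ‖Fc I ((rlayer Gs)ᴴ * tens W * rlayer Gs)‖ ^ 4 ≤ ∏ q, iot I q := by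
  rw [Fc_formula I Gs hd W, norm_mul, mul_pow]
  have h1 := list_prod_bound I Gs hd hW
  have h2 : ‖∏ q ∈ Finset.univ \ suppL Gs, Lam I q (W q)‖ ^ 4
      ≤ ∏ q ∈ Finset.univ \ suppL Gs, iot I q := by
    rw [norm_prod, ← Finset.prod_pow]
    refine Finset.prod_le_prod (fun _ _ => by positivity) (fun q _ => ?_)
    have hb := Lam_bound_proj I q (hW q).1 (hW q).2
    have hpos := iot_pos I q
    have hle := iot_le_one I q
    calc ‖Lam I q (W q)‖ ^ 4 ≤ (iot I q) ^ 4 := pow_le_pow_left₀ (norm_nonneg _) hb 4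
      _ ≤ (iot I q) ^ 1 := pow_le_pow_of_le_one hpos.le hle (by norm_num)
      _ = _ := pow_one _
  have h3 : ∏ q, iot I q
      = (∏ q ∈ suppL Gs, iot I q) * ∏ q ∈ Finset.univ \ suppL Gs, iot I q := by
    rw [mul_comm, Finset.prod_sdiff (Finset.subset_univ _)]
  rw [h3]
  exact mul_le_mul h1 h2 (by positivity) (Finset.prod_nonneg (fun q _ => (iot_pos I q).le))

end Vale.Agent.P368
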