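import Mathlib

/-!
# QAC circuits with a bounded number of entangling layers

Definitions for the parity correlation of QAC circuits: qubits, generalized Toffoli gates,
layers of gates with pairwise disjoint supports, layers of one-qubit unitaries, and the
average correlation of the measured output qubit with parity.
-/

namespace Vale.Agent.P368

open Matrix

/-- The qubits of a circuit with `n` input qubits and `a` ancilla qubits. -/
abbrev Qubit (n a : ℕ) : Type := Fin n ⊕ Fin a

/-- A computational basis configuration of all qubits. -/
abbrev Config (n a : ℕ) : Type := Qubit n a → Bool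

/-- The basis configuration `|x⟩ ⊗ |0…0⟩`. -/
def inputConfig {n a : ℕ} (x : Fin n → Bool) : Config n a := Sum.elim x (fun _ => false)

/-- A generalized Toffoli gate `|z₁,…,z_t,b⟩ ↦ |z₁,…,z_t,b ⊕ z₁⋯z_t⟩` on distinct qubits, `t ≥ 1`. -/
structure Toffoli (n a : ℕ) where
  /-- the control qubits -/
  controls : Finset (Qubit n a)
  /-- the target qubit -/
  target : Qubit n a
  /-- there is at least one control -/
  controls_nonempty : controls.Nonempty
  /-- the target is not a control -/
  target_not_mem : target ∉ controls

/-- The qubits on which a generalized Toffoli gate acts. -/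
def Toffoli.support {n a : ℕ} (g : Toffoli n a) : Finset (Qubit n a) := insert g.target g.controls

/-- The action of a generalized Toffoli gate on basis configurations. -/
def Toffoli.flip {n a : ℕ} (g : Toffoli n a) (w : Config n a) : Config n a :=
  if ∀ c ∈ g.controls, w c = true then Function.update w g.target (!w g.target) else w

/-- The unitary matrix of a generalized Toffoli gate: it sends `|w⟩` to `|flip w⟩`. -/
def Toffoli.matrix {n a : ℕ} (g : Toffoli n a) : Matrix (Config n a) (Config n a) ℂ :=
  Matrix.of fun z w => if z = g.flip w then 1 else 0

/-- A layer of generalized Toffoli gates with pairwise disjoint supports (possibly empty). -/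
structure ToffoliLayer (n a : ℕ) where
  /-- the gates of the layer -/
  gates : List (Toffoli n a)
  /-- the supports of the gates are pairwise disjoint -/
  disjoint : gates.Pairwise (fun g h => Disjoint g.support h.support)

/-- The unitary matrix of a layer of generalized Toffoli gates. -/
def ToffoliLayer.matrix {n a : ℕ} (L : ToffoliLayer n a) : Matrix (Config n a) (Config n a) ℂ :=
  (L.gates.map Toffoli.matrix).prod

/-- The tensor product matrix of a layer of arbitrary one-qubit unitaries, one on each qubit
(identity gates allowed). -/
def oneQubitLayer {n a : ℕ} (U : Qubit n a → Matrix.unitaryGroup Bool ℂ) :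
    Matrix (Config n a) (Config n a) ℂ :=
  Matrix.of fun z w => ∏ q, (U q : Matrix Bool Bool ℂ) (z q) (w q)

/-- A circuit with at most two entangling layers, with a designated output qubit:
a layer of one-qubit gates, a layer of Toffoli gates, a layer of one-qubit gates, a layer of
Toffoli gates, a layer of one-qubit gates.  Successive layers of one-qubit gates are merged;
a Toffoli layer may be empty, and a layer containing both one-qubit and Toffoli gates on
disjoint supports is the product of its two parts. -/
structure DepthTwoCircuit (n a : ℕ) where
  /-- first layer of one-qubit gates -/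
  U₀ : Qubit n a → Matrix.unitaryGroup Bool ℂ
  /-- first entangling layer -/
  L₁ : ToffoliLayer n a
  /-- middle layer of one-qubit gates -/
  U₁ : Qubit n a → Matrix.unitaryGroup Bool ℂ
  /-- second entangling layer -/
  L₂ : ToffoliLayer n a
  /-- last layer of one-qubit gates -/
  U₂ : Qubit n a → Matrix.unitaryGroup Bool ℂ
  /-- the qubit that is measured in the computational basis -/
  output : Qubit n a

/-- The final state of the circuit on input `|x⟩ ⊗ |0…0⟩`. -/
def DepthTwoCircuit.finalState {n a : ℕ} (C : DepthTwoCircuit n a) (x : Fin n → Bool) :
    Config n a → ℂ :=
  (oneQubitLayer C.U₂ * C.L₂.matrix * oneQubitLayer C.U₁ * C.L₁.matrix * oneQubitLayer C.U₀) *ᵥ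
    (fun z => if z = inputConfig x then 1 else 0)

/-- The probability that measuring the output qubit in the final state gives `b`. -/
noncomputable def DepthTwoCircuit.prob {n a : ℕ} (C : DepthTwoCircuit n a) (x : Fin n → Bool)
    (b : Bool) : ℝ :=
  ∑ z : Config n a with z C.output = b, ‖C.finalState x z‖ ^ 2

/-- The parity of a bit string. -/
def parity {n : ℕ} (x : Fin n → Bool) : Bool :=
  decide (Odd (Finset.univ.filter (fun i => x i = true)).card)

/-- The parity correlation: the average over uniform `x` of `Pr[correct] - Pr[wrong]`,
where the answer of the circuit is the measured value of the output qubit. -/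
noncomputable def DepthTwoCircuit.parityCorrelation {n a : ℕ} (C : DepthTwoCircuit n a) : ℝ :=
  (1 / 2 : ℝ) ^ n * ∑ x : Fin n → Bool, (C.prob x (parity x) - C.prob x (!parity x))

end Vale.Agent.P368
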