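import Vale.Agent.P368.Tens

/-!
# Product formula for the top Fourier coefficient after one layer of reflections
-/

namespace Vale.Agent.P368

open Matrix

set_option linter.unusedSectionVars false
set_option linter.unusedSimpArgs false
set_option linter.unusedVariables false

variable {Q : Type*} [Fintype Q] [DecidableEq Q]

/-- One-qubit projector `|φ⟩⟨φ|`. -/
def ketbra (φ : Bool → ℂ) : Matrix Bool Bool ℂ := Matrix.of fun s t => φ s * star (φ t)

/-- A reflection about a product state on a subset of the qubits. -/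
structure RGate (Q : Type*) where
  /-- the qubits of the gate -/
  A : Finset Q
  /-- the one-qubit states -/
  φ : Q → Bool → ℂ
  /-- they are unit vectors -/
  unit : ∀ q ∈ A, ‖φ q false‖ ^ 2 + ‖φ q true‖ ^ 2 = 1

/-- The qubit-wise projectors of a reflection gate. -/
def RGate.proj (G : RGate Q) (q : Q) : Matrix Bool Bool ℂ :=
  if q ∈ G.A then ketbra (G.φ q) else 1

/-- The matrix `1 - 2 |φ⟩⟨φ|` of a reflection gate. -/
def RGate.mat (G : RGate Q) : Matrix (Q → Bool) (Q → Bool) ℂ :=
  1 - (2 : ℂ) • tens G.proj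

/-- The matrix of a list of reflection gates. -/
def rlayer (Gs : List (RGate Q)) : Matrix (Q → Bool) (Q → Bool) ℂ :=
  (Gs.map RGate.mat).prod

/-- The union of the supports of a list of gates. -/
def suppL (Gs : List (RGate Q)) : Finset Q := Gs.foldr (fun G s => G.A ∪ s) ∅

/-- Allowed values of the bits: free on `I`, `false` off `I`. -/
def cubeT (I : Finset Q) (q : Q) : Finset Bool := if q ∈ I then Finset.univ else {false}

/-- The sign-and-normalization weight of a bit. -/
noncomputable def wt (I : Finset Q) (q : Q) (b : Bool) : ℂ :=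
  if q ∈ I then (1 / 2) * (if b then -1 else 1) else 1

/-- The normalized signed sum over the subcube of the diagonal of a matrix. -/
noncomputable def Fc (I : Finset Q) (M : Matrix (Q → Bool) (Q → Bool) ℂ) : ℂ :=
  ∑ x ∈ Fintype.piFinset (cubeT I), (∏ q, wt I q (x q)) * M x x

/-- The one-qubit functional. -/
noncomputable def Lam (I : Finset Q) (q : Q) (M : Matrix Bool Bool ℂ) : ℂ :=
  ∑ b ∈ cubeT I q, wt I q b * M b b

lemma Lam_mem {I : Finset Q} {q : Q} (h : q ∈ I) (M : Matrix Bool Bool ℂ) :
    Lam I q M = (1 / 2) * (M false false - M true true) := by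
  simp only [Lam, cubeT, wt, h, if_true, Fintype.univ_bool, Finset.sum_insert, Finset.mem_singleton,
    Finset.sum_singleton]
  simp
  ring

lemma Lam_not_mem {I : Finset Q} {q : Q} (h : q ∉ I) (M : Matrix Bool Bool ℂ) :
    Lam I q M = M false false := by
  simp [Lam, cubeT, wt, h]

lemma Fc_add (I : Finset Q) (M N : Matrix (Q → Bool) (Q → Bool) ℂ) :
    Fc I (M + N) = Fc I M + Fc I N := by
  simp only [Fc, Matrix.add_apply, mul_add, Finset.sum_add_distrib]

lemma Fc_sub (I : Finset Q) (M N : Matrix (Q → Bool) (Q → Bool) ℂ) :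
    Fc I (M - N) = Fc I M - Fc I N := by
  simp only [Fc, Matrix.sub_apply, mul_sub, Finset.sum_sub_distrib]

lemma Fc_smul (I : Finset Q) (c : ℂ) (M : Matrix (Q → Bool) (Q → Bool) ℂ) :
    Fc I (c • M) = c * Fc I M := by
  simp only [Fc, Matrix.smul_apply, smul_eq_mul, Finset.mul_sum]
  refine Finset.sum_congr rfl (fun x _ => ?_)
  ring

lemma Fc_tens (I : Finset Q) (W : Q → Matrix Bool Bool ℂ) :
    Fc I (tens W) = ∏ q, Lam I q (W q) := by
  simp only [Fc, tens_apply, Lam]
  rw [Finset.prod_univ_sum]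
  refine Finset.sum_congr rfl (fun x _ => ?_)
  rw [Finset.prod_mul_distrib]

lemma ketbra_conjTranspose (φ : Bool → ℂ) : (ketbra φ)ᴴ = ketbra φ := by
  ext s t
  simp [ketbra, Matrix.conjTranspose_apply, mul_comm]

lemma RGate.proj_conjTranspose (G : RGate Q) (q : Q) : (G.proj q)ᴴ = G.proj q := by
  unfold RGate.proj
  split_ifs
  · exact ketbra_conjTranspose _
  · simp

lemma RGate.mat_conjTranspose (G : RGate Q) : G.matᴴ = G.mat := by
  unfold RGate.mat
  rw [Matrix.conjTranspose_sub, Matrix.conjTranspose_one, Matrix.conjTranspose_smul, tens_conjTranspose]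
  have : (fun q => (G.proj q)ᴴ) = G.proj := by ext1 q; exact G.proj_conjTranspose q
  rw [this]
  simp

/-- Expansion of a conjugation by one reflection. -/
lemma RGate.conj_tens (G : RGate Q) (W : Q → Matrix Bool Bool ℂ) :
    G.matᴴ * tens W * G.mat =
      tens W - (2 : ℂ) • tens (fun q => G.proj q * W q) - (2 : ℂ) • tens (fun q => W q * G.proj q)
        + (4 : ℂ) • tens (fun q => G.proj q * W q * G.proj q) := by
  rw [G.mat_conjTranspose]
  unfold RGate.mat
  have h1 : tens G.proj * tens W = tens (fun q => G.proj q * W q) := tens_mul _ _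
  have h2 : tens W * tens G.proj = tens (fun q => W q * G.proj q) := tens_mul _ _
  have h3 : tens (fun q => G.proj q * W q) * tens G.proj
      = tens (fun q => G.proj q * W q * G.proj q) := tens_mul _ _
  simp only [Matrix.sub_mul, Matrix.mul_sub, Matrix.one_mul, Matrix.mul_one, Matrix.smul_mul,
    Matrix.mul_smul, h1, h2, h3, smul_sub, smul_smul]
  rw [show (2 : ℂ) * 2 = 4 by norm_num]
  abel

/-- The block value of a gate. -/
noncomputable def Bk (I : Finset Q) (G : RGate Q) (W : Q → Matrix Bool Bool ℂ) : ℂ :=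
  ∏ q ∈ G.A, Lam I q (W q)
    - 2 * ∏ q ∈ G.A, Lam I q (G.proj q * W q)
    - 2 * ∏ q ∈ G.A, Lam I q (W q * G.proj q)
    + 4 * ∏ q ∈ G.A, Lam I q (G.proj q * W q * G.proj q)

lemma Bk_congr (I : Finset Q) (G : RGate Q) {W W' : Q → Matrix Bool Bool ℂ}
    (h : ∀ q ∈ G.A, W' q = W q) : Bk I G W' = Bk I G W := by
  unfold Bk
  have h1 : ∏ q ∈ G.A, Lam I q (W' q) = ∏ q ∈ G.A, Lam I q (W q) :=
    Finset.prod_congr rfl (fun q hq => by rw [h q hq])
  have h2 : ∏ q ∈ G.A, Lam I q (G.proj q * W' q) = ∏ q ∈ G.A, Lam I q (G.proj q * W q) :=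
    Finset.prod_congr rfl (fun q hq => by rw [h q hq])
  have h3 : ∏ q ∈ G.A, Lam I q (W' q * G.proj q) = ∏ q ∈ G.A, Lam I q (W q * G.proj q) :=
    Finset.prod_congr rfl (fun q hq => by rw [h q hq])
  have h4 : ∏ q ∈ G.A, Lam I q (G.proj q * W' q * G.proj q)
      = ∏ q ∈ G.A, Lam I q (G.proj q * W q * G.proj q) :=
    Finset.prod_congr rfl (fun q hq => by rw [h q hq])
  rw [h1, h2, h3, h4]

lemma proj_of_not_mem (G : RGate Q) {q : Q} (h : q ∉ G.A) : G.proj q = 1 := by
  simp [RGate.proj, h]

lemma disjoint_suppL {G : RGate Q} {Gs : List (RGate Q)}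
    (h : ∀ H ∈ Gs, Disjoint G.A H.A) : Disjoint G.A (suppL Gs) := by
  induction Gs with
  | nil => simp [suppL]
  | cons H Hs ih =>
    simp only [List.mem_cons, forall_eq_or_imp] at h
    simp only [suppL, List.foldr_cons]
    rw [Finset.disjoint_union_right]
    exact ⟨h.1, ih h.2⟩

/-- Splitting the product outside the support. -/
lemma prod_compl_split (G : RGate Q) (Gs : List (RGate Q)) (hd : Disjoint G.A (suppL Gs))
    (f : Q → ℂ) :
    ∏ q ∈ Finset.univ \ suppL Gs, f q
      = (∏ q ∈ G.A, f q) * ∏ q ∈ Finset.univ \ suppL (G :: Gs), f q := by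
  have hunion : Finset.univ \ suppL Gs = G.A ∪ (Finset.univ \ suppL (G :: Gs)) := by
    ext q
    simp only [suppL, List.foldr_cons, Finset.mem_sdiff, Finset.mem_univ, true_and, Finset.mem_union,
      not_or]
    constructor
    · intro h
      by_cases hq : q ∈ G.A
      · exact Or.inl hq
      · exact Or.inr ⟨hq, h⟩
    · rintro (h | h)
      · exact Finset.disjoint_left.mp hd h
      · exact h.2
  have hdisj : Disjoint G.A (Finset.univ \ suppL (G :: Gs)) := by
    rw [Finset.disjoint_left]
    intro q hq hq'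
    simp only [suppL, List.foldr_cons, Finset.mem_sdiff, Finset.mem_univ, true_and, Finset.mem_union,
      not_or] at hq'
    exact hq'.1 hq
  rw [hunion, Finset.prod_union hdisj]

/-- The product formula. -/
theorem Fc_formula (I : Finset Q) (Gs : List (RGate Q))
    (hd : Gs.Pairwise (fun G H => Disjoint G.A H.A)) (W : Q → Matrix Bool Bool ℂ) :
    Fc I ((rlayer Gs)ᴴ * tens W * rlayer Gs)
      = (Gs.map (fun G => Bk I G W)).prod * ∏ q ∈ Finset.univ \ suppL Gs, Lam I q (W q) := by
  induction Gs generalizing W with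
  | nil =>
    simp [rlayer, suppL, Fc_tens]
  | cons G Gs ih =>
    rw [List.pairwise_cons] at hd
    have hdG := disjoint_suppL hd.1
    have hL : rlayer (G :: Gs) = G.mat * rlayer Gs := by simp [rlayer]
    have hconj : (rlayer (G :: Gs))ᴴ * tens W * rlayer (G :: Gs)
        = (rlayer Gs)ᴴ * (G.matᴴ * tens W * G.mat) * rlayer Gs := by
      rw [hL, Matrix.conjTranspose_mul]
      simp only [Matrix.mul_assoc]
    rw [hconj, G.conj_tens]
    simp only [Matrix.mul_add, Matrix.mul_sub, Matrix.add_mul, Matrix.sub_mul, Matrix.mul_smul,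
      Matrix.smul_mul, Fc_add, Fc_sub, Fc_smul]
    rw [ih hd.2 W, ih hd.2, ih hd.2, ih hd.2]
    -- all the products over the other gates agree
    have hprod : ∀ W' : Q → Matrix Bool Bool ℂ, (∀ q, q ∉ G.A → W' q = W q) →
        (Gs.map (fun H => Bk I H W')).prod = (Gs.map (fun H => Bk I H W)).prod := by
      intro W' hW'
      congr 1
      refine List.map_congr_left (fun H hH => Bk_congr I H (fun q hq => hW' q ?_))
      exact fun hq' => Finset.disjoint_left.mp (hd.1 H hH) hq' hq
    have hrest : ∀ W' : Q → Matrix Bool Bool ℂ, (∀ q, q ∉ G.A → W' q = W q) →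
        ∏ q ∈ Finset.univ \ suppL Gs, Lam I q (W' q)
          = (∏ q ∈ G.A, Lam I q (W' q)) * ∏ q ∈ Finset.univ \ suppL (G :: Gs), Lam I q (W q) := by
      intro W' hW'
      rw [prod_compl_split G Gs hdG]
      congr 1
      refine Finset.prod_congr rfl (fun q hq => ?_)
      rw [hW' q]
      simp only [suppL, List.foldr_cons, Finset.mem_sdiff, Finset.mem_univ, true_and,
        Finset.mem_union, not_or] at hq
      exact hq.1
    have e1 : ∀ q, q ∉ G.A → G.proj q * W q = W q := fun q hq => by
      rw [proj_of_not_mem G hq, Matrix.one_mul]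
    have e2 : ∀ q, q ∉ G.A → W q * G.proj q = W q := fun q hq => by
      rw [proj_of_not_mem G hq, Matrix.mul_one]
    have e3 : ∀ q, q ∉ G.A → G.proj q * W q * G.proj q = W q := fun q hq => by
      rw [proj_of_not_mem G hq, Matrix.one_mul, Matrix.mul_one]
    rw [hprod _ e1, hprod _ e2, hprod _ e3]
    rw [hrest W (fun _ _ => rfl), hrest _ e1, hrest _ e2, hrest _ e3]
    simp only [List.map_cons, List.prod_cons]
    unfold Bk
    ring

end Vale.Agent.P368
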