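import Vale.Agent.P368.Bounds
import Vale.Agent.P368.Defs

/-!
# From the circuit model to reflections about product states
-/

namespace Vale.Agent.P368

open Matrix

set_option linter.unusedSectionVars false
set_option linter.unusedSimpArgs false
set_option linter.unusedVariables false

section Generic

variable {Q : Type*} [Fintype Q] [DecidableEq Q]

/-- Multilinearity of the tensor product at one qubit. -/
lemma tens_update_apply (F : Q → Matrix Bool Bool ℂ) (o : Q) (A : Matrix Bool Bool ℂ)
    (z w : Q → Bool) :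
    tens (Function.update F o A) z w = A (z o) (w o) * ∏ q ∈ Finset.univ.erase o, F q (z q) (w q) := by
  rw [tens_apply, ← Finset.mul_prod_erase Finset.univ _ (Finset.mem_univ o)]
  congr 1
  · simp
  · refine Finset.prod_congr rfl (fun q hq => ?_)
    rw [Function.update_of_ne (Finset.ne_of_mem_erase hq)]

lemma tens_update_add (F : Q → Matrix Bool Bool ℂ) (o : Q) (A B : Matrix Bool Bool ℂ) :
    tens (Function.update F o (A + B)) = tens (Function.update F o A) + tens (Function.update F o B) := by
  ext z w
  simp only [Matrix.add_apply, tens_update_apply, add_mul]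

lemma tens_update_smul (F : Q → Matrix Bool Bool ℂ) (o : Q) (c : ℂ) (A : Matrix Bool Bool ℂ) :
    tens (Function.update F o (c • A)) = c • tens (Function.update F o A) := by
  ext z w
  simp only [Matrix.smul_apply, tens_update_apply, smul_eq_mul, mul_assoc]

/-- A family of one-qubit unitaries. -/
def IsUnitFam (U : Q → Matrix Bool Bool ℂ) : Prop :=
  ∀ q, (U q)ᴴ * U q = 1 ∧ U q * (U q)ᴴ = 1

lemma tens_unit_left {U : Q → Matrix Bool Bool ℂ} (hU : IsUnitFam U) : (tens U)ᴴ * tens U = 1 := by
  rw [tens_conjTranspose, tens_mul]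
  have : (fun q => (U q)ᴴ * U q) = fun _ => (1 : Matrix Bool Bool ℂ) := by
    ext1 q; exact (hU q).1
  rw [this, tens_one]

lemma tens_unit_right {U : Q → Matrix Bool Bool ℂ} (hU : IsUnitFam U) : tens U * (tens U)ᴴ = 1 := by
  rw [tens_conjTranspose, tens_mul]
  have : (fun q => U q * (U q)ᴴ) = fun _ => (1 : Matrix Bool Bool ℂ) := by
    ext1 q; exact (hU q).2
  rw [this, tens_one]

/-- Conjugation of a product operator by a product unitary. -/
lemma conj_tens_tens (U W : Q → Matrix Bool Bool ℂ) :
    (tens U)ᴴ * tens W * tens U = tens (fun q => (U q)ᴴ * W q * U q) := by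
  rw [tens_conjTranspose, tens_mul, tens_mul]

lemma conj_isProjFam {U W : Q → Matrix Bool Bool ℂ} (hU : IsUnitFam U) (hW : IsProjFam W) :
    IsProjFam (fun q => (U q)ᴴ * W q * U q) := by
  intro q
  constructor
  · simp only [Matrix.conjTranspose_mul, Matrix.conjTranspose_conjTranspose, (hW q).1, Matrix.mul_assoc]
  · calc (U q)ᴴ * W q * U q * ((U q)ᴴ * W q * U q)
        = (U q)ᴴ * W q * (U q * (U q)ᴴ) * W q * U q := by simp only [Matrix.mul_assoc]
      _ = (U q)ᴴ * (W q * W q) * U q := by rw [(hU q).2]; simp only [Matrix.mul_assoc, Matrix.mul_one]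
      _ = _ := by rw [(hW q).2]

/-- Conjugate a reflection gate by a one-qubit layer. -/
noncomputable def RGate.conjU (G : RGate Q) (U : Q → Matrix Bool Bool ℂ) (hU : IsUnitFam U) : RGate Q where
  A := G.A
  φ q := (U q)ᴴ *ᵥ G.φ q
  unit q hq := by
    have h := G.unit q hq
    set v := (U q)ᴴ *ᵥ G.φ q with hv
    have key : star v ⬝ᵥ v = star (G.φ q) ⬝ᵥ G.φ q := by
      have : star v = star (G.φ q) ᵥ* (U q) := by
        rw [hv, Matrix.star_mulVec, Matrix.conjTranspose_conjTranspose]
      rw [this, ← Matrix.dotProduct_mulVec, hv, Matrix.mulVec_mulVec, (hU q).2, Matrix.one_mulVec]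
    have e : ∀ u : Bool → ℂ, star u ⬝ᵥ u = ((‖u false‖ ^ 2 + ‖u true‖ ^ 2 : ℝ) : ℂ) := by
      intro u
      have e' : ∀ z : ℂ, star z * z = ((‖z‖ ^ 2 : ℝ) : ℂ) := fun z => by
        change (starRingEnd ℂ) z * z = _
        rw [← Complex.normSq_eq_conj_mul_self, Complex.normSq_eq_norm_sq]
      simp only [dotProduct, Fintype.sum_bool, Pi.star_apply]
      rw [e', e']
      push_cast
      ring
    rw [e, e, h] at key
    exact_mod_cast key

lemma ketbra_conj (U : Matrix Bool Bool ℂ) (φ : Bool → ℂ) :
    Uᴴ * ketbra φ * U = ketbra (Uᴴ *ᵥ φ) := by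
  have hk : ∀ ψ : Bool → ℂ, ketbra ψ = Matrix.vecMulVec ψ (star ψ) := fun ψ => by
    ext s t; simp [ketbra, Matrix.vecMulVec_apply]
  rw [hk, hk, Matrix.mul_vecMulVec, Matrix.vecMulVec_mul, Matrix.star_mulVec,
    Matrix.conjTranspose_conjTranspose]

lemma RGate.conjU_proj (G : RGate Q) {U : Q → Matrix Bool Bool ℂ} (hU : IsUnitFam U) (q : Q) :
    (U q)ᴴ * G.proj q * U q = (G.conjU U hU).proj q := by
  unfold RGate.proj RGate.conjU
  by_cases h : q ∈ G.A
  · simp only [h, if_true]
    exact ketbra_conj _ _
  · simp only [h, if_false, Matrix.mul_one]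
    exact (hU q).1

lemma RGate.conjU_mat (G : RGate Q) {U : Q → Matrix Bool Bool ℂ} (hU : IsUnitFam U) :
    (tens U)ᴴ * G.mat * tens U = (G.conjU U hU).mat := by
  unfold RGate.mat
  rw [Matrix.mul_sub, Matrix.sub_mul, Matrix.mul_one, tens_unit_left hU, Matrix.mul_smul,
    Matrix.smul_mul, conj_tens_tens]
  congr 3
  ext1 q
  exact G.conjU_proj hU q

lemma rlayer_conj (Gs : List (RGate Q)) {U : Q → Matrix Bool Bool ℂ} (hU : IsUnitFam U) :
    (tens U)ᴴ * rlayer Gs * tens U = rlayer (Gs.map (fun G => G.conjU U hU)) := by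
  induction Gs with
  | nil => simp [rlayer, tens_unit_left hU]
  | cons G Gs ih =>
    have h1 : rlayer (G :: Gs) = G.mat * rlayer Gs := by simp [rlayer]
    have h2 : rlayer ((G :: Gs).map (fun G => G.conjU U hU))
        = (G.conjU U hU).mat * rlayer (Gs.map (fun G => G.conjU U hU)) := by simp [rlayer]
    rw [h1, h2, ← ih, ← G.conjU_mat hU]
    calc (tens U)ᴴ * (G.mat * rlayer Gs) * tens U
        = (tens U)ᴴ * G.mat * (tens U * (tens U)ᴴ) * rlayer Gs * tens U := by
          rw [tens_unit_right hU]; simp only [Matrix.mul_assoc, Matrix.mul_one]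
      _ = _ := by simp only [Matrix.mul_assoc]

lemma RGate.conj_trivial (G : RGate Q) {W : Q → Matrix Bool Bool ℂ} (h : ∀ q ∈ G.A, W q = 1) :
    G.matᴴ * tens W * G.mat = tens W := by
  rw [G.mat_conjTranspose]
  have hc : G.mat * tens W = tens W * G.mat := by
    unfold RGate.mat
    have hcomm : tens G.proj * tens W = tens W * tens G.proj := by
      apply tens_commute
      intro q
      by_cases hq : q ∈ G.A
      · rw [h q hq]; simp
      · rw [proj_of_not_mem G hq]; simp
    simp only [Matrix.sub_mul, Matrix.mul_sub, Matrix.one_mul, Matrix.mul_one, Matrix.smul_mul,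
      Matrix.mul_smul, hcomm]
  rw [hc, Matrix.mul_assoc, G.mat_sq, Matrix.mul_one]

lemma rlayer_conj_trivial (Gs : List (RGate Q)) {W : Q → Matrix Bool Bool ℂ}
    (h : ∀ G ∈ Gs, ∀ q ∈ G.A, W q = 1) :
    (rlayer Gs)ᴴ * tens W * rlayer Gs = tens W := by
  induction Gs with
  | nil => simp [rlayer]
  | cons G Gs ih =>
    have h1 : rlayer (G :: Gs) = G.mat * rlayer Gs := by simp [rlayer]
    rw [h1, Matrix.conjTranspose_mul]
    calc (rlayer Gs)ᴴ * G.matᴴ * tens W * (G.mat * rlayer Gs)
        = (rlayer Gs)ᴴ * (G.matᴴ * tens W * G.mat) * rlayer Gs := by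
          simp only [Matrix.mul_assoc]
      _ = _ := by
          rw [G.conj_trivial (h G (by simp))]
          exact ih (fun H hH => h H (by simp [hH]))

/-- The three-term expansion of the conjugation of a one-qubit projector through a gate
containing that qubit. -/
lemma RGate.conj_single (G : RGate Q) {o : Q} (ho : o ∈ G.A) (E : Matrix Bool Bool ℂ)
    (hE : Eᴴ = E ∧ E * E = E) :
    let Y : Q → Matrix Bool Bool ℂ := Function.update (fun _ => 1) o E
    let p := G.proj o
    let r := (1 : Matrix Bool Bool ℂ) - (2 : ℂ) • p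
    G.matᴴ * tens Y * G.mat =
      tens Y + tens (Function.update G.proj o (r * E * r)) - tens (Function.update G.proj o E) := by
  intro Y p r
  rw [G.conj_tens]
  have hpidem := G.proj_isProjFam o
  have e1 : (fun q => G.proj q * Y q) = Function.update G.proj o (p * E) := by
    ext1 q
    by_cases h : q = o
    · subst h; simp [Y, p]
    · simp [Y, Function.update_of_ne h]
  have e2 : (fun q => Y q * G.proj q) = Function.update G.proj o (E * p) := by
    ext1 q
    by_cases h : q = o
    · subst h; simp [Y, p]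
    · simp [Y, Function.update_of_ne h]
  have e3 : (fun q => G.proj q * Y q * G.proj q) = Function.update G.proj o (p * E * p) := by
    ext1 q
    by_cases h : q = o
    · subst h; simp [Y, p]
    · simp only [Y, Function.update_of_ne h, Matrix.mul_one]
      exact (G.proj_isProjFam q).2
  rw [e1, e2, e3]
  have hr : r * E * r = E + ((-(2 : ℂ)) • (p * E) + ((-(2 : ℂ)) • (E * p) + (4 : ℂ) • (p * E * p))) := by
    simp only [r, Matrix.sub_mul, Matrix.mul_sub, Matrix.one_mul, Matrix.mul_one, Matrix.smul_mul,
      Matrix.mul_smul, smul_sub, smul_smul, neg_smul]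
    rw [show (2 : ℂ) * 2 = 4 by norm_num]
    abel
  rw [hr, tens_update_add, tens_update_add, tens_update_add, tens_update_smul, tens_update_smul,
    tens_update_smul]
  simp only [neg_smul]
  abel

/-- Heisenberg picture of a one-qubit projector through a layer of disjoint reflections. -/
lemma layer_three_terms (Gs : List (RGate Q)) (hd : Gs.Pairwise (fun G H => Disjoint G.A H.A))
    (o : Q) (E : Matrix Bool Bool ℂ) (hE : Eᴴ = E ∧ E * E = E) :
    ∃ W₁ W₂ W₃ : Q → Matrix Bool Bool ℂ, IsProjFam W₁ ∧ IsProjFam W₂ ∧ IsProjFam W₃ ∧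
      (rlayer Gs)ᴴ * tens (Function.update (fun _ => 1) o E) * rlayer Gs
        = tens W₁ + tens W₂ - tens W₃ := by
  set Y : Q → Matrix Bool Bool ℂ := Function.update (fun _ => 1) o E with hY
  have hYproj : IsProjFam Y := by
    intro q
    by_cases h : q = o
    · subst h; simpa [hY] using hE
    · simp [hY, Function.update_of_ne h]
  induction Gs with
  | nil =>
    refine ⟨Y, Y, Y, hYproj, hYproj, hYproj, ?_⟩
    simp [rlayer]
  | cons G Gs ih =>
    rw [List.pairwise_cons] at hd
    have h1 : rlayer (G :: Gs) = G.mat * rlayer Gs := by simp [rlayer]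
    have hconj : (rlayer (G :: Gs))ᴴ * tens Y * rlayer (G :: Gs)
        = (rlayer Gs)ᴴ * (G.matᴴ * tens Y * G.mat) * rlayer Gs := by
      rw [h1, Matrix.conjTranspose_mul]; simp only [Matrix.mul_assoc]
    by_cases ho : o ∈ G.A
    · -- the gate containing the output qubit
      have hexp := G.conj_single ho E hE
      simp only at hexp
      set p := G.proj o with hp
      set r := (1 : Matrix Bool Bool ℂ) - (2 : ℂ) • p with hr
      have hrprop : rᴴ = r ∧ r * r = 1 := by
        have hpp := G.proj_isProjFam o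
        constructor
        · simp [hr, Matrix.conjTranspose_sub, Matrix.conjTranspose_smul, hpp.1, hp]
        · simp only [hr, Matrix.sub_mul, Matrix.mul_sub, Matrix.one_mul, Matrix.mul_one,
            Matrix.smul_mul, Matrix.mul_smul, hp, hpp.2, smul_sub, smul_smul]
          rw [show (2 : ℂ) * 2 = 4 by norm_num]
          have : (4 : ℂ) • G.proj o = (2 : ℂ) • G.proj o + (2 : ℂ) • G.proj o := by
            rw [← add_smul]; norm_num
          rw [this]
          abel
      have hE' : (r * E * r)ᴴ = r * E * r ∧ (r * E * r) * (r * E * r) = r * E * r := by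
        constructor
        · simp only [Matrix.conjTranspose_mul, hrprop.1, hE.1, Matrix.mul_assoc]
        · calc r * E * r * (r * E * r) = r * E * (r * r) * E * r := by simp only [Matrix.mul_assoc]
            _ = r * (E * E) * r := by rw [hrprop.2]; simp only [Matrix.mul_assoc, Matrix.mul_one]
            _ = _ := by rw [hE.2]
      have hupd : ∀ E₀ : Matrix Bool Bool ℂ, (E₀ᴴ = E₀ ∧ E₀ * E₀ = E₀) →
          IsProjFam (Function.update G.proj o E₀) := by
        intro E₀ hE₀ q
        by_cases h : q = o
        · subst h; simpa using hE₀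
        · simpa [Function.update_of_ne h] using G.proj_isProjFam q
      have htriv : ∀ W : Q → Matrix Bool Bool ℂ, (∀ q, q ∉ G.A → W q = 1) →
          (rlayer Gs)ᴴ * tens W * rlayer Gs = tens W := by
        intro W hW
        refine rlayer_conj_trivial Gs (fun H hH q hq => hW q ?_)
        exact fun hq' => Finset.disjoint_left.mp (hd.1 H hH) hq' hq
      refine ⟨Y, Function.update G.proj o (r * E * r), Function.update G.proj o E, hYproj,
        hupd _ hE', hupd _ hE, ?_⟩
      rw [hconj, hexp]
      simp only [Matrix.mul_add, Matrix.mul_sub, Matrix.add_mul, Matrix.sub_mul]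
      have hY1 : ∀ q, q ∉ G.A → Y q = 1 := fun q hq => by
        have : q ≠ o := fun h => hq (h ▸ ho)
        simp [hY, Function.update_of_ne this]
      have hU : ∀ E₀ : Matrix Bool Bool ℂ, ∀ q, q ∉ G.A → Function.update G.proj o E₀ q = 1 := by
        intro E₀ q hq
        have : q ≠ o := fun h => hq (h ▸ ho)
        rw [Function.update_of_ne this, proj_of_not_mem G hq]
      rw [htriv _ hY1, htriv _ (hU _), htriv _ (hU _)]
    · -- gates not containing the output qubit cancel
      have hG : G.matᴴ * tens Y * G.mat = tens Y := by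
        refine G.conj_trivial (fun q hq => ?_)
        have : q ≠ o := fun h => ho (h ▸ hq)
        simp [hY, Function.update_of_ne this]
      obtain ⟨W₁, W₂, W₃, h₁, h₂, h₃, heq⟩ := ih hd.2
      refine ⟨W₁, W₂, W₃, h₁, h₂, h₃, ?_⟩
      rw [hconj, hG, heq]

end Generic

end Vale.Agent.P368
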