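import Vale.Agent.P368.Toffoli

/-!
# The parity correlation of circuits with two entangling layers
-/

namespace Vale.Agent.P368

open Matrix

set_option linter.unusedSectionVars false
set_option linter.unusedSimpArgs false
set_option linter.unusedVariables false

variable {n a : ℕ}

/-- The underlying matrices of a family of one-qubit unitaries. -/
def uFam (U : Qubit n a → Matrix.unitaryGroup Bool ℂ) : Qubit n a → Matrix Bool Bool ℂ :=
  fun q => (U q : Matrix Bool Bool ℂ)

lemma uFam_isUnit (U : Qubit n a → Matrix.unitaryGroup Bool ℂ) : IsUnitFam (uFam U) := by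
  intro q
  have h := (U q).2
  constructor
  · have := Matrix.mem_unitaryGroup_iff'.mp h
    simpa [uFam, Matrix.star_eq_conjTranspose] using this
  · have := Matrix.mem_unitaryGroup_iff.mp h
    simpa [uFam, Matrix.star_eq_conjTranspose] using this

lemma oneQubitLayer_eq (U : Qubit n a → Matrix.unitaryGroup Bool ℂ) :
    oneQubitLayer U = tens (uFam U) := rfl

/-- The one-qubit projector onto the value `b`. -/
def bitProj (b : Bool) : Matrix Bool Bool ℂ :=
  Matrix.diagonal (fun s => if s = b then 1 else 0)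

lemma bitProj_herm (b : Bool) : (bitProj b)ᴴ = bitProj b := by
  ext s t
  by_cases h : s = t
  · subst h; by_cases h' : s = b <;> simp [bitProj, h']
  · simp [bitProj, Matrix.conjTranspose_apply, h, Ne.symm h]

lemma bitProj_idem (b : Bool) : bitProj b * bitProj b = bitProj b := by
  unfold bitProj
  rw [Matrix.diagonal_mul_diagonal]
  congr 1
  ext s
  by_cases h : s = b <;> simp [h]

/-- The product operator projecting the output qubit onto the value `b`. -/
def outProj (o : Qubit n a) (b : Bool) : Qubit n a → Matrix Bool Bool ℂ :=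
  Function.update (fun _ => 1) o (bitProj b)

lemma tens_outProj (o : Qubit n a) (b : Bool) :
    tens (outProj o b) = Matrix.diagonal (fun z : Config n a => if z o = b then 1 else 0) := by
  ext z w
  rw [outProj, tens_update_apply]
  by_cases hzw : z = w
  · subst hzw
    simp only [Matrix.diagonal_apply_eq]
    have : ∏ q ∈ Finset.univ.erase o, (1 : Matrix Bool Bool ℂ) (z q) (z q) = 1 :=
      Finset.prod_eq_one (fun q _ => by simp)
    rw [this, mul_one]
    simp [bitProj]
  · rw [Matrix.diagonal_apply_ne _ hzw]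
    obtain ⟨q, hq⟩ := Function.ne_iff.mp hzw
    by_cases hqo : q = o
    · subst hqo
      simp [bitProj, hq]
    · have : ∏ q ∈ Finset.univ.erase o, (1 : Matrix Bool Bool ℂ) (z q) (w q) = 0 :=
        Finset.prod_eq_zero (Finset.mem_erase.mpr ⟨hqo, Finset.mem_univ q⟩) (by simp [hq])
      rw [this, mul_zero]

/-- The total matrix of a circuit. -/
noncomputable def DepthTwoCircuit.total (C : DepthTwoCircuit n a) :
    Matrix (Config n a) (Config n a) ℂ :=
  oneQubitLayer C.U₂ * C.L₂.matrix * oneQubitLayer C.U₁ * C.L₁.matrix * oneQubitLayer C.U₀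

lemma DepthTwoCircuit.prob_eq (C : DepthTwoCircuit n a) (x : Fin n → Bool) (b : Bool) :
    ((C.prob x b : ℝ) : ℂ) =
      (C.totalᴴ * tens (outProj C.output b) * C.total) (inputConfig x) (inputConfig x) := by
  have hstate : ∀ z, C.finalState x z = C.total z (inputConfig x) := by
    intro z
    unfold DepthTwoCircuit.finalState DepthTwoCircuit.total
    simp [Matrix.mulVec, dotProduct]
  rw [tens_outProj, Matrix.mul_apply]
  simp only [Matrix.mul_diagonal, Matrix.conjTranspose_apply]
  unfold DepthTwoCircuit.prob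
  push_cast
  rw [Finset.sum_filter]
  refine Finset.sum_congr rfl (fun z _ => ?_)
  rw [hstate]
  by_cases h : z C.output = b
  · simp only [h, if_true, mul_one]
    have e' : ∀ y : ℂ, star y * y = ((‖y‖ ^ 2 : ℝ) : ℂ) := fun y => by
      change (starRingEnd ℂ) y * y = _
      rw [← Complex.normSq_eq_conj_mul_self, Complex.normSq_eq_norm_sq]
    rw [e']
    push_cast
    rfl
  · simp [h]

/-- The set of input qubits. -/
def inputSet (n a : ℕ) : Finset (Qubit n a) := Finset.univ.map Function.Embedding.inl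

lemma inl_mem_inputSet (i : Fin n) : (Sum.inl i : Qubit n a) ∈ inputSet n a := by
  simp [inputSet]

lemma inr_not_mem_inputSet (j : Fin a) : (Sum.inr j : Qubit n a) ∉ inputSet n a := by
  simp [inputSet]

lemma prod_iot_input : ∏ q : Qubit n a, iot (inputSet n a) q = (1 / 2 : ℝ) ^ n := by
  rw [Fintype.prod_sum_type]
  have h1 : ∏ i : Fin n, iot (inputSet n a) (Sum.inl i) = (1 / 2 : ℝ) ^ n := by
    simp [iot, inl_mem_inputSet]
  have h2 : ∏ j : Fin a, iot (inputSet n a) (Sum.inr j) = 1 := by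
    simp [iot, inr_not_mem_inputSet]
  rw [h1, h2, mul_one]

/-- The sign of a bit string. -/
def sgnB {n : ℕ} (x : Fin n → Bool) : ℂ := ∏ i, if x i then -1 else 1

lemma sgnB_eq (x : Fin n → Bool) : sgnB x = if parity x then -1 else 1 := by
  unfold sgnB parity
  rw [Finset.prod_ite]
  simp only [Finset.prod_const, Finset.prod_const_one, mul_one]
  by_cases h : Odd (Finset.univ.filter (fun i => x i = true)).card
  · simp [h, h.neg_one_pow]
  · have h' := Nat.not_odd_iff_even.mp h
    simp [h, h'.neg_one_pow]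

lemma Fc_input (M : Matrix (Config n a) (Config n a) ℂ) :
    Fc (inputSet n a) M =
      ((1 / 2 : ℂ) ^ n) * ∑ x : Fin n → Bool, sgnB x * M (inputConfig x) (inputConfig x) := by
  unfold Fc
  rw [Finset.mul_sum]
  refine Finset.sum_bij' (fun z _ => fun i => z (Sum.inl i)) (fun x _ => inputConfig x) ?_ ?_ ?_ ?_ ?_
  · intro z _; exact Finset.mem_univ _
  · intro x _
    rw [Fintype.mem_piFinset]
    intro q
    cases q with
    | inl i => simp [cubeT, inl_mem_inputSet]
    | inr j => simp [cubeT, inr_not_mem_inputSet, inputConfig]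
  · intro z hz
    rw [Fintype.mem_piFinset] at hz
    funext q
    cases q with
    | inl i => rfl
    | inr j =>
      have := hz (Sum.inr j)
      simp only [cubeT, inr_not_mem_inputSet, if_false, Finset.mem_singleton] at this
      rw [this]; rfl
  · intro x _; rfl
  · intro z hz
    rw [Fintype.mem_piFinset] at hz
    have hinp : inputConfig (fun i => z (Sum.inl i)) = z := by
      funext q
      cases q with
      | inl i => rfl
      | inr j =>
        have := hz (Sum.inr j)
        simp only [cubeT, inr_not_mem_inputSet, if_false, Finset.mem_singleton] at this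
        rw [this]; rfl
    rw [hinp]
    have hprod : ∏ q, wt (inputSet n a) q (z q)
        = (1 / 2 : ℂ) ^ n * sgnB (fun i => z (Sum.inl i)) := by
      rw [Fintype.prod_sum_type]
      have h2 : ∏ j : Fin a, wt (inputSet n a) (Sum.inr j) (z (Sum.inr j)) = 1 :=
        Finset.prod_eq_one (fun j _ => by simp [wt, inr_not_mem_inputSet])
      rw [h2, mul_one]
      unfold sgnB
      have : ∀ i : Fin n, wt (inputSet n a) (Sum.inl i) (z (Sum.inl i))
          = (1 / 2) * (if z (Sum.inl i) then -1 else 1) := fun i => by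
        simp [wt, inl_mem_inputSet]
      simp only [this, Finset.prod_mul_distrib, Finset.prod_const, Finset.card_univ, Fintype.card_fin]
    rw [hprod]
    ring

lemma chain_algebra {ι : Type*} [Fintype ι] [DecidableEq ι] (A₀ A₁ A₂ L₁ L₂ X : Matrix ι ι ℂ) :
    (A₂ * L₂ * A₁ * L₁ * A₀)ᴴ * X * (A₂ * L₂ * A₁ * L₁ * A₀)
      = A₀ᴴ * L₁ᴴ * (A₁ᴴ * (L₂ᴴ * (A₂ᴴ * X * A₂) * L₂) * A₁) * L₁ * A₀ := by
  simp only [Matrix.conjTranspose_mul, Matrix.mul_assoc]

lemma conj_through {ι : Type*} [Fintype ι] [DecidableEq ι] (A L T : Matrix ι ι ℂ)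
    (h0 : A * Aᴴ = 1) :
    Aᴴ * Lᴴ * T * L * A = (Aᴴ * L * A)ᴴ * (Aᴴ * T * A) * (Aᴴ * L * A) := by
  rw [Matrix.conjTranspose_mul, Matrix.conjTranspose_mul, Matrix.conjTranspose_conjTranspose]
  calc Aᴴ * Lᴴ * T * L * A
      = Aᴴ * Lᴴ * (A * Aᴴ) * T * (A * Aᴴ) * L * A := by
        rw [h0]; simp only [Matrix.mul_one]
    _ = Aᴴ * (Lᴴ * A) * (Aᴴ * T * A) * (Aᴴ * L * A) := by simp only [Matrix.mul_assoc]

lemma combine_three {ι : Type*} [Fintype ι] [DecidableEq ι] (A₀ A₁ L₁ P₁ P₂ P₃ : Matrix ι ι ℂ) :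
    A₀ᴴ * L₁ᴴ * (A₁ᴴ * (P₁ + P₂ - P₃) * A₁) * L₁ * A₀
      = A₀ᴴ * L₁ᴴ * (A₁ᴴ * P₁ * A₁) * L₁ * A₀ + A₀ᴴ * L₁ᴴ * (A₁ᴴ * P₂ * A₁) * L₁ * A₀
        - A₀ᴴ * L₁ᴴ * (A₁ᴴ * P₃ * A₁) * L₁ * A₀ := by
  simp only [Matrix.mul_add, Matrix.add_mul, Matrix.mul_sub, Matrix.sub_mul]

/-- The Heisenberg picture of the output projector is a signed sum of three conjugated product
operators with projector factors. -/
lemma DepthTwoCircuit.three_terms (C : DepthTwoCircuit n a) (b : Bool) :
    ∃ (Gs : List (RGate (Qubit n a))) (W₁ W₂ W₃ : Qubit n a → Matrix Bool Bool ℂ),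
      Gs.Pairwise (fun G H => Disjoint G.A H.A) ∧
      IsProjFam W₁ ∧ IsProjFam W₂ ∧ IsProjFam W₃ ∧
      C.totalᴴ * tens (outProj C.output b) * C.total
        = (rlayer Gs)ᴴ * tens W₁ * rlayer Gs + (rlayer Gs)ᴴ * tens W₂ * rlayer Gs
          - (rlayer Gs)ᴴ * tens W₃ * rlayer Gs := by
  set o := C.output with ho
  have hU₀ := uFam_isUnit C.U₀
  have hU₁ := uFam_isUnit C.U₁
  have hU₂ := uFam_isUnit C.U₂
  -- the last one-qubit layer
  set E := ((uFam C.U₂) o)ᴴ * bitProj b * (uFam C.U₂) o with hE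
  have hEprop : Eᴴ = E ∧ E * E = E := by
    have := conj_isProjFam hU₂ (W := Function.update (fun _ => 1) o (bitProj b)) (by
      intro q
      by_cases h : q = o
      · subst h; simpa using ⟨bitProj_herm b, bitProj_idem b⟩
      · simp [Function.update_of_ne h]) o
    simpa [hE] using this
  have hlast : (tens (uFam C.U₂))ᴴ * tens (outProj o b) * tens (uFam C.U₂)
      = tens (Function.update (fun _ => 1) o E) := by
    rw [conj_tens_tens]
    congr 1
    ext1 q
    by_cases h : q = o
    · subst h; simp [outProj, hE]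
    · simp only [outProj, Function.update_of_ne h, Matrix.mul_one]
      exact (hU₂ q).1
  -- the second Toffoli layer
  obtain ⟨W₁, W₂, W₃, h₁, h₂, h₃, hthree⟩ :=
    layer_three_terms (C.L₂.gates.map Toffoli.rgate) C.L₂.pairwise o E hEprop
  -- the first Toffoli layer, conjugated by the first one-qubit layer
  set Gs := (C.L₁.gates.map Toffoli.rgate).map (fun G => G.conjU (uFam C.U₀) hU₀) with hGs
  have hGsd : Gs.Pairwise (fun G H => Disjoint G.A H.A) := by
    rw [hGs, List.pairwise_map]
    exact C.L₁.pairwise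
  have hfirst : (tens (uFam C.U₀))ᴴ * rlayer (C.L₁.gates.map Toffoli.rgate) * tens (uFam C.U₀)
      = rlayer Gs := rlayer_conj _ hU₀
  -- conjugation of a product operator through the first layers
  have hconj : ∀ W : Qubit n a → Matrix Bool Bool ℂ,
      (tens (uFam C.U₀))ᴴ * (rlayer (C.L₁.gates.map Toffoli.rgate))ᴴ * ((tens (uFam C.U₁))ᴴ * tens W
        * tens (uFam C.U₁)) * rlayer (C.L₁.gates.map Toffoli.rgate) * tens (uFam C.U₀)
      = (rlayer Gs)ᴴ * tens (fun q => ((uFam C.U₀) q)ᴴ * (((uFam C.U₁) q)ᴴ * W q * (uFam C.U₁) q)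
          * (uFam C.U₀) q) * rlayer Gs := by
    intro W
    rw [conj_through _ _ _ (tens_unit_right hU₀), hfirst, conj_tens_tens, conj_tens_tens]
  refine ⟨Gs, _, _, _, hGsd, conj_isProjFam hU₀ (conj_isProjFam hU₁ h₁),
    conj_isProjFam hU₀ (conj_isProjFam hU₁ h₂), conj_isProjFam hU₀ (conj_isProjFam hU₁ h₃), ?_⟩
  rw [← hconj W₁, ← hconj W₂, ← hconj W₃]
  unfold DepthTwoCircuit.total
  rw [oneQubitLayer_eq, oneQubitLayer_eq, oneQubitLayer_eq, C.L₁.matrix_eq, C.L₂.matrix_eq,
    chain_algebra, hlast, hthree, combine_three]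

/-- The bound on the normalized signed sum for the projector on the value `b`. -/
lemma DepthTwoCircuit.Fc_bound_three (C : DepthTwoCircuit n a) (b : Bool) :
    ‖Fc (inputSet n a) (C.totalᴴ * tens (outProj C.output b) * C.total)‖
      ≤ 3 * (1 / 2 : ℝ) ^ ((n : ℝ) / 4) := by
  obtain ⟨Gs, W₁, W₂, W₃, hd, h₁, h₂, h₃, heq⟩ := C.three_terms b
  rw [heq, Fc_sub, Fc_add]
  have key : ∀ W : Qubit n a → Matrix Bool Bool ℂ, IsProjFam W →
      ‖Fc (inputSet n a) ((rlayer Gs)ᴴ * tens W * rlayer Gs)‖ ≤ (1 / 2 : ℝ) ^ ((n : ℝ) / 4) := by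
    intro W hW
    have h4 := Fc_bound (inputSet n a) Gs hd hW
    rw [prod_iot_input] at h4
    set t := ‖Fc (inputSet n a) ((rlayer Gs)ᴴ * tens W * rlayer Gs)‖ with ht
    have ht0 : 0 ≤ t := norm_nonneg _
    have hpow : ((1 / 2 : ℝ) ^ ((n : ℝ) / 4)) ^ 4 = (1 / 2 : ℝ) ^ n := by
      rw [← Real.rpow_natCast, ← Real.rpow_mul (by norm_num)]
      rw [show ((n : ℝ) / 4 * ((4 : ℕ) : ℝ)) = (n : ℝ) by push_cast; ring]
      exact Real.rpow_natCast _ _
    rw [← hpow] at h4
    exact (pow_le_pow_iff_left₀ ht0 (by positivity) (by norm_num)).mp h4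
  have k₁ := key W₁ h₁
  have k₂ := key W₂ h₂
  have k₃ := key W₃ h₃
  calc _ ≤ ‖Fc (inputSet n a) ((rlayer Gs)ᴴ * tens W₁ * rlayer Gs)‖
        + ‖Fc (inputSet n a) ((rlayer Gs)ᴴ * tens W₂ * rlayer Gs)‖
        + ‖Fc (inputSet n a) ((rlayer Gs)ᴴ * tens W₃ * rlayer Gs)‖ :=
        (norm_sub_le _ _).trans (by gcongr; exact norm_add_le _ _)
    _ ≤ _ := by linarith

/-- **Main theorem.**  For every circuit with at most two entangling layers, on any number of
ancillas, the parity correlation is at most `6 · 2^(-n/4)`. -/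
theorem DepthTwoCircuit.parityCorrelation_bound (C : DepthTwoCircuit n a) :
    |C.parityCorrelation| ≤ 6 * (1 / 2 : ℝ) ^ ((n : ℝ) / 4) := by
  have hcorr : ((C.parityCorrelation : ℝ) : ℂ) =
      Fc (inputSet n a) (C.totalᴴ * tens (outProj C.output false) * C.total)
        - Fc (inputSet n a) (C.totalᴴ * tens (outProj C.output true) * C.total) := by
    rw [Fc_input, Fc_input, ← mul_sub, ← Finset.sum_sub_distrib]
    unfold DepthTwoCircuit.parityCorrelation
    push_cast
    congr 1
    refine Finset.sum_congr rfl (fun x _ => ?_)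
    rw [← C.prob_eq, ← C.prob_eq, sgnB_eq]
    cases parity x <;> simp <;> ring
  have h := norm_sub_le (Fc (inputSet n a) (C.totalᴴ * tens (outProj C.output false) * C.total))
    (Fc (inputSet n a) (C.totalᴴ * tens (outProj C.output true) * C.total))
  rw [← hcorr, Complex.norm_real, Real.norm_eq_abs] at h
  have h1 := C.Fc_bound_three false
  have h2 := C.Fc_bound_three true
  linarith

end Vale.Agent.P368
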