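import Mathlib

/-!
# Tensor products of one-qubit matrices
-/

namespace Vale.Agent.P368

open Matrix

set_option linter.unusedSectionVars false
set_option linter.unusedSimpArgs false

variable {Q : Type*} [Fintype Q] [DecidableEq Q]

/-- Tensor product of one-qubit matrices. -/
def tens (W : Q → Matrix Bool Bool ℂ) : Matrix (Q → Bool) (Q → Bool) ℂ :=
  Matrix.of fun z w => ∏ q, W q (z q) (w q)

@[simp] lemma tens_apply (W : Q → Matrix Bool Bool ℂ) (z w : Q → Bool) :
    tens W z w = ∏ q, W q (z q) (w q) := rfl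

lemma tens_mul (W V : Q → Matrix Bool Bool ℂ) :
    tens W * tens V = tens (fun q => W q * V q) := by
  ext z w
  simp only [Matrix.mul_apply, tens_apply, ← Finset.prod_mul_distrib]
  have := (Finset.prod_univ_sum (fun _ : Q => (Finset.univ : Finset Bool))
    (fun q b => W q (z q) b * V q b (w q))).symm
  simp only [Fintype.piFinset_univ] at this
  exact this

lemma tens_one : tens (fun _ : Q => (1 : Matrix Bool Bool ℂ)) = 1 := by
  ext z w
  by_cases h : z = w
  · subst h; simp
  · obtain ⟨q, hq⟩ := Function.ne_iff.mp h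
    have : ∏ q, (1 : Matrix Bool Bool ℂ) (z q) (w q) = 0 :=
      Finset.prod_eq_zero (Finset.mem_univ q) (by simp [hq])
    simp [this, h]

lemma tens_conjTranspose (W : Q → Matrix Bool Bool ℂ) :
    (tens W)ᴴ = tens (fun q => (W q)ᴴ) := by
  ext z w
  simp [Matrix.conjTranspose_apply, map_prod]

/-- A family of Hermitian idempotent one-qubit matrices. -/
def IsProjFam (W : Q → Matrix Bool Bool ℂ) : Prop :=
  ∀ q, (W q)ᴴ = W q ∧ W q * W q = W q

lemma tens_herm {W : Q → Matrix Bool Bool ℂ} (hW : IsProjFam W) : (tens W)ᴴ = tens W := by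
  rw [tens_conjTranspose]; congr 1; ext1 q; exact (hW q).1

lemma tens_idem {W : Q → Matrix Bool Bool ℂ} (hW : IsProjFam W) : tens W * tens W = tens W := by
  rw [tens_mul]; congr 1; ext1 q; exact (hW q).2

/-- Commuting factors give commuting tensor products. -/
lemma tens_commute {W V : Q → Matrix Bool Bool ℂ} (h : ∀ q, W q * V q = V q * W q) :
    tens W * tens V = tens V * tens W := by
  rw [tens_mul, tens_mul]; congr 1; ext1 q; exact h q

/-- The diagonal entry of a Hermitian idempotent matrix is a real number in `[0,1]`. -/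
lemma herm_idem_diag {ι : Type*} [Fintype ι] [DecidableEq ι] {M : Matrix ι ι ℂ}
    (h1 : Mᴴ = M) (h2 : M * M = M) (x : ι) :
    ∃ r : ℝ, M x x = (r : ℂ) ∧ 0 ≤ r ∧ r ≤ 1 := by
  have hsum : M x x = ((∑ y, ‖M y x‖ ^ 2 : ℝ) : ℂ) := by
    conv_lhs => rw [← h2, Matrix.mul_apply]
    push_cast
    refine Finset.sum_congr rfl (fun y _ => ?_)
    have : M x y = star (M y x) := by
      conv_lhs => rw [← h1]
      rfl
    rw [this, Complex.star_def, ← Complex.normSq_eq_conj_mul_self]
    simp [Complex.normSq_eq_norm_sq]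
  refine ⟨∑ y, ‖M y x‖ ^ 2, hsum, by positivity, ?_⟩
  set r : ℝ := ∑ y, ‖M y x‖ ^ 2 with hr
  have hge : ‖M x x‖ ^ 2 ≤ r :=
    Finset.single_le_sum (f := fun y => ‖M y x‖ ^ 2) (fun y _ => by positivity) (Finset.mem_univ x)
  rw [hsum] at hge
  have hnn : 0 ≤ r := by positivity
  have : ‖((r : ℝ) : ℂ)‖ = r := by simp [abs_of_nonneg hnn]
  rw [this] at hge
  nlinarith

end Vale.Agent.P368
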