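import Vale.Agent.P368.Link

/-!
# A generalized Toffoli gate is a reflection about a product state
-/

namespace Vale.Agent.P368

open Matrix

set_option linter.unusedSectionVars false
set_option linter.unusedSimpArgs false
set_option linter.unusedVariables false

variable {n a : ℕ}

/-- The one-qubit state `|1⟩`. -/
def oneV : Bool → ℂ := fun b => if b then 1 else 0

/-- The real number `1/√2`. -/
noncomputable def hs : ℝ := (Real.sqrt 2)⁻¹

lemma hs_mul_self : hs * hs = 1 / 2 := by
  unfold hs
  rw [← mul_inv, Real.mul_self_sqrt (by norm_num)]; norm_num

/-- The one-qubit state `|−⟩`. -/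
noncomputable def minusV : Bool → ℂ :=
  fun b => if b then -((hs : ℝ) : ℂ) else ((hs : ℝ) : ℂ)

lemma hs_mul_self' : ((hs : ℝ) : ℂ) * ((hs : ℝ) : ℂ) = 1 / 2 := by
  rw [← Complex.ofReal_mul, hs_mul_self]; push_cast; rfl

/-- The state of a qubit in the reflection description of a generalized Toffoli gate. -/
noncomputable def Toffoli.state (g : Toffoli n a) (q : Qubit n a) : Bool → ℂ :=
  if q = g.target then minusV else oneV

/-- A generalized Toffoli gate as a reflection about a product state. -/
noncomputable def Toffoli.rgate (g : Toffoli n a) : RGate (Qubit n a) where
  A := g.support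
  φ := g.state
  unit q _ := by
    unfold Toffoli.state
    split_ifs
    · simp only [minusV, if_true, if_false, Bool.false_eq_true, norm_neg, Complex.norm_real,
        Real.norm_eq_abs, sq_abs]
      have := hs_mul_self
      nlinarith
    · simp [oneV]

lemma ketbra_oneV (s t : Bool) : ketbra oneV s t = if s = true ∧ t = true then 1 else 0 := by
  cases s <;> cases t <;> simp [ketbra, oneV]

lemma ketbra_minusV (s t : Bool) :
    ketbra minusV s t = (1 / 2) * (if s = t then 1 else -1) := by
  have h := hs_mul_self'
  cases s <;> cases t <;> simp [ketbra, minusV, Complex.conj_ofReal] <;> linear_combination h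

lemma Toffoli.rgate_proj (g : Toffoli n a) (q : Qubit n a) :
    g.rgate.proj q = if q ∈ g.support then ketbra (g.state q) else 1 := rfl

lemma Toffoli.proj_target (g : Toffoli n a) (s t : Bool) :
    g.rgate.proj g.target s t = (1 / 2) * (if s = t then 1 else -1) := by
  have : g.target ∈ g.support := Finset.mem_insert_self _ _
  rw [g.rgate_proj, if_pos this]
  simp only [Toffoli.state, if_true]
  exact ketbra_minusV s t

lemma Toffoli.proj_control (g : Toffoli n a) {c : Qubit n a} (hc : c ∈ g.controls) (s t : Bool) :
    g.rgate.proj c s t = if s = true ∧ t = true then 1 else 0 := by
  have h1 : c ∈ g.support := Finset.mem_insert_of_mem hc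
  have h2 : c ≠ g.target := fun h => g.target_not_mem (h ▸ hc)
  rw [g.rgate_proj, if_pos h1]
  simp only [Toffoli.state, h2, if_false]
  exact ketbra_oneV s t

lemma Toffoli.proj_other (g : Toffoli n a) {q : Qubit n a} (hq : q ∉ g.support) (s t : Bool) :
    g.rgate.proj q s t = if s = t then 1 else 0 := by
  rw [g.rgate_proj, if_neg hq, Matrix.one_apply]

/-- The matrix of a generalized Toffoli gate is the reflection. -/
theorem Toffoli.matrix_eq (g : Toffoli n a) : g.matrix = g.rgate.mat := by
  ext z w
  simp only [Toffoli.matrix, Matrix.of_apply, RGate.mat, Matrix.sub_apply, Matrix.smul_apply,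
    tens_apply, smul_eq_mul, Matrix.one_apply]
  by_cases hA : ∀ c ∈ g.controls, w c = true
  · -- all controls of `w` are set
    have hflip : g.flip w = Function.update w g.target (!w g.target) := by
      unfold Toffoli.flip; rw [if_pos hA]
    rw [hflip]
    by_cases hzw : z = w
    · subst hzw
      have hne : z ≠ Function.update z g.target (!z g.target) := by
        intro h
        have := congrFun h g.target
        simp at this
      have hprod : ∏ q, g.rgate.proj q (z q) (z q) = 1 / 2 := by
        rw [Finset.prod_eq_single g.target]
        · rw [g.proj_target]; simp
        · intro q _ hq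
          by_cases hc : q ∈ g.controls
          · rw [g.proj_control hc]; simp [hA q hc]
          · have : q ∉ g.support := by simp [Toffoli.support, hq, hc]
            rw [g.proj_other this]; simp
        · simp
      rw [hprod, if_neg hne, if_pos rfl]
      norm_num
    · by_cases hzf : z = Function.update w g.target (!w g.target)
      · -- the flipped configuration
        have hprod : ∏ q, g.rgate.proj q (z q) (w q) = -(1 / 2) := by
          rw [Finset.prod_eq_single g.target]
          · rw [g.proj_target, hzf]; simp
          · intro q _ hq
            have hzq : z q = w q := by rw [hzf, Function.update_of_ne hq]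
            by_cases hc : q ∈ g.controls
            · rw [g.proj_control hc, hzq]; simp [hA q hc]
            · have : q ∉ g.support := by simp [Toffoli.support, hq, hc]
              rw [g.proj_other this, hzq]; simp
          · simp
        rw [hprod, if_pos hzf, if_neg hzw]
        norm_num
      · -- anything else
        have hex : ∃ q, q ≠ g.target ∧ z q ≠ w q := by
          by_contra hcon
          push Not at hcon
          -- then `z` agrees with `w` off the target
          by_cases htar : z g.target = w g.target
          · exact hzw (funext fun q => by
              by_cases hq : q = g.target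
              · rw [hq]; exact htar
              · exact hcon q hq)
          · apply hzf
            funext q
            by_cases hq : q = g.target
            · subst hq
              simp only [Function.update_self]
              cases hz : z g.target <;> cases hw : w g.target <;> simp_all
            · rw [Function.update_of_ne hq]; exact hcon q hq
        obtain ⟨q, hq, hne⟩ := hex
        have hprod : ∏ q, g.rgate.proj q (z q) (w q) = 0 := by
          refine Finset.prod_eq_zero (Finset.mem_univ q) ?_
          by_cases hc : q ∈ g.controls
          · rw [g.proj_control hc]
            have : ¬ (z q = true ∧ w q = true) := fun h => hne (by rw [h.1, h.2])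
            simp [this]
          · have : q ∉ g.support := by simp [Toffoli.support, hq, hc]
            rw [g.proj_other this]; simp [hne]
        rw [hprod, if_neg hzf, if_neg hzw]
        simp
  · -- some control of `w` is not set: the gate acts trivially
    have hflip : g.flip w = w := by
      unfold Toffoli.flip; rw [if_neg hA]
    rw [hflip]
    push Not at hA
    obtain ⟨c, hc, hcw⟩ := hA
    have hprod : ∏ q, g.rgate.proj q (z q) (w q) = 0 := by
      refine Finset.prod_eq_zero (Finset.mem_univ c) ?_
      rw [g.proj_control hc]
      simp [hcw]
    rw [hprod]
    simp

lemma ToffoliLayer.matrix_eq (L : ToffoliLayer n a) :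
    L.matrix = rlayer (L.gates.map Toffoli.rgate) := by
  unfold ToffoliLayer.matrix rlayer
  rw [List.map_map]
  congr 1
  refine List.map_congr_left (fun g _ => ?_)
  exact g.matrix_eq

lemma ToffoliLayer.pairwise (L : ToffoliLayer n a) :
    (L.gates.map Toffoli.rgate).Pairwise (fun G H => Disjoint G.A H.A) := by
  rw [List.pairwise_map]
  exact L.disjoint

end Vale.Agent.P368
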